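import Vale.Agent.Lib.P170T.Final

open Filter Topology

namespace Vale.Agent.Results.P170.A_main

open Vale.Agent.Lib.P170

/-- The satisfiability threshold conjecture: for every `k ≥ 3`, random `k`-SAT has a limiting
threshold `α ∈ (0, ∞)`. -/
theorem result (k : ℕ) (hk : 3 ≤ k) : ∃ α : ℝ, 0 < α ∧
    (∀ c : ℝ, c < α → Tendsto (fun n : ℕ => satProb k n ⌊c * n⌋₊) atTop (𝓝 1)) ∧
    (∀ c : ℝ, α < c → Tendsto (fun n : ℕ => satProb k n ⌊c * n⌋₊) atTop (𝓝 0)) :=
  Vale.Agent.Lib.P170T.threshold hk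

end Vale.Agent.Results.P170.A_main
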